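import Crest.Agent.R278.Setup

/-! The four lines through the origin: numerical data and certificates. -/

set_option autoImplicit false
set_option linter.unusedSectionVars false

namespace Crest.Agent.R278

def QYL : P2 := [[], [0, 0, -1514], [], [4]]
def g2L : P2 := neg2 g1L
def a2L : P2 := neg2 a1L
def b2L : P2 := smul2 [-1] (neg2 b1L)

structure Arm where
  s : ℤ
  c1 : ℤ
  c2 : ℤ
  c3 : ℤ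
  pt : P1
  DQ : P2
  e1 : ℕ
  e2 : ℕ
  u0 : ℕ
  f1 : ℕ
  f2 : ℕ
  f3 : ℕ
  h1 : ℕ
  h2 : ℕ
  h3 : ℕ
  u1 : ℕ
  u2 : ℕ
  u3 : ℕ
  m1 : ℕ
  m2 : ℕ
  τ : ℕ
  μ : ℕ
  μ' : ℕ
  d1 : ℕ
  d2 : ℕ

namespace Arm
variable (a : Arm)
def G1 : P2 := shift2 a.s g1L
def G2 : P2 := shift2 a.s g2L
def A (aL bL : P2) : P2 :=
  add2 (smul2 [0, 1] (shift2 a.s aL)) (mul2 (shift2 a.s bL) (shift2 a.s QYL))
def B (aL bL : P2) : P2 := sub2 (shift2 a.s aL) (mul2 (shift2 a.s bL) a.DQ)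
def A1 : P2 := a.A a1L b1L
def A2 : P2 := a.A a2L b2L
def B1 : P2 := a.B a1L b1L
def B2 : P2 := a.B a2L b2L
def N : P2 :=
  sub2 (mul2 (shift2 a.s a1L) (shift2 a.s b2L)) (mul2 (shift2 a.s a2L) (shift2 a.s b1L))

def head (c : ℤ) (i j : ℕ) : P1 := smul1 c (mul1 (pow1 (1 :: [-90]) i) (pow1 (1 :: a.pt) j))

/-- the certificates of a finite chart -/
structure FinOk (pt : P1) (μ w1 w2 τ : ℕ) : Prop where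
  g1 : fin2 pt μ a.G1 w1 = true
  g2 : fin2 pt μ a.G2 w2 = true
  a1 : fin2 pt μ a.A1 (w2 + τ) = true
  c1 : fin2 pt μ (finC pt μ a.A1 a.B1) (w2 + 1) = true
  a2 : fin2 pt μ a.A2 (w1 + 0) = true
  c2 : fin2 pt μ (finC pt μ a.A2 a.B2) (w1 + 1) = true
  n : fin2 pt μ a.N (w1 + w2) = true

structure Ok : Prop where
  hd1 : eq1 (a.G1.headD []) (a.head gam a.m1 a.e1) = true
  hd2 : eq1 (a.G2.headD []) (a.head gam a.m2 a.e2) = true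
  hdN : eq1 (a.N.headD []) (a.head cN (a.m1 + a.m2) (a.e1 + a.e2)) = true
  fπ : a.FinOk a.pt 1 a.e1 a.e2 0
  fM : a.FinOk [-90] a.μ a.m1 a.m2 a.τ
  i1 : inf2 a.μ' a.G1.tail (a.d1 + a.μ' - 1) = true
  i2 : inf2 a.μ' a.G2 a.d2 = true
  iA1 : inf2 a.μ' a.A1 (a.d2 + 2 + 1) = true
  iC1 : inf2 a.μ' (infC a.μ' a.A1 a.B1) (a.d2 + 1 + 1) = true
  iA2 : inf2 a.μ' a.A2 (a.d1 + 2 + 0) = true
  iC2 : inf2 a.μ' (infC a.μ' a.A2 a.B2) (a.d1 + 1 + 0) = true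
  iN : inf2 a.μ' a.N (a.d1 + a.d2) = true
  c1 : a.c1 ≠ 0
  c2 : a.c2 ≠ 0
  c3 : a.c3 ≠ 0
  e1 : a.e1 ≠ 0
  e2 : a.e2 ≠ 0
  u0 : a.u0 ≠ 0
  μ' : a.μ' ≠ 0
  nd1 : a.d1 = a.m1 + a.pt.length * a.e1
  nd2 : a.d2 = a.m2 + a.pt.length * a.e2
  nf : a.μ' * a.e1 + a.d1 = a.f1 + a.f2 + a.f3 + 12
  nh : a.μ' * a.e2 + a.d2 = a.h1 + a.h2 + a.h3 + 2
  nu : a.μ' * a.u0 + 2 = a.u1 + a.u2 + a.u3
  nμ : a.μ * a.u0 = 2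
  lead : (1 :: a.pt).getLastD 0 ≠ 0
  cop : ev1 (1 :: a.pt) (1 / 90 : ℚ) ≠ 0
end Arm

def arm1 : Arm where
  s := 9
  c1 := 18
  c2 := -17
  c3 := 35
  pt := pt1
  DQ := [[0, 0, -32130], [0, -542], [36], []]
  e1 := 4
  e2 := 3
  u0 := 2
  f1 := 3
  f2 := 2
  f3 := 1
  h1 := 4
  h2 := 1
  h3 := 2
  u1 := 2
  u2 := 1
  u3 := 1
  m1 := 6
  m2 := 0
  τ := 1
  μ := 1
  μ' := 1
  d1 := 14
  d2 := 6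

def arm3 : Arm where
  s := 26
  c1 := 17
  c2 := 35
  c3 := 52
  pt := pt3
  DQ := [[0, 0, 92820], [0, 6598], [104], []]
  e1 := 2
  e2 := 1
  u0 := 1
  f1 := 4
  f2 := 3
  f3 := 1
  h1 := 3
  h2 := 4
  h3 := 2
  u1 := 2
  u2 := 2
  u3 := 1
  m1 := 6
  m2 := 4
  τ := 0
  μ := 2
  μ' := 3
  d1 := 14
  d2 := 8

theorem arm1_ok : arm1.Ok := by
  refine ⟨?_, ?_, ?_, ⟨?_, ?_, ?_, ?_, ?_, ?_, ?_⟩, ⟨?_, ?_, ?_, ?_, ?_, ?_, ?_⟩, ?_, ?_, ?_, ?_,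
    ?_, ?_, ?_, ?_, ?_, ?_, ?_, ?_, ?_, ?_, ?_, ?_, ?_, ?_, ?_, ?_, ?_, ?_⟩
  all_goals decide +kernel

theorem arm3_ok : arm3.Ok := by
  refine ⟨?_, ?_, ?_, ⟨?_, ?_, ?_, ?_, ?_, ?_, ?_⟩, ⟨?_, ?_, ?_, ?_, ?_, ?_, ?_⟩, ?_, ?_, ?_, ?_,
    ?_, ?_, ?_, ?_, ?_, ?_, ?_, ?_, ?_, ?_, ?_, ?_, ?_, ?_, ?_, ?_, ?_, ?_⟩
  all_goals decide +kernel

end Crest.Agent.R278
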